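import Vale.Agent.P235.K5.H12.Int

set_option linter.all false

/-!
# Line CX, row [CX6]: the bags without a new vertex can be removed

The condition on the gluing cliques (inside an earlier bag, at most one vertex outside its centres
and its own adhesion) survives.
-/

namespace Vale.Agent.P235.K5.H964

open Vale.Agent.P235 Vale.Agent.P235.K5

variable {k : ℕ} {V : Type} {H : SimpleGraph V}

/-- every adhesion lies in an earlier bag, with at most one vertex outside the centres and the
adhesion of that bag -/
def OneOut (n : ℕ) (B M : ℕ → Set V) : Prop :=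
  ∀ u < n, 0 < u → ∃ t < u, Adh B u ⊆ B t ∧ (Adh B u \ (M t ∪ Adh B t)).Subsingleton

/-- **Every bag may be assumed to have a new vertex.** -/
theorem reduceM : ∀ (n : ℕ) (B M : ℕ → Set V), Glued k H n B → OneOut n B M →
    ∃ (n' : ℕ) (B' M' : ℕ → Set V), Glued k H n' B' ∧ (∀ t < n', ∃ v ∈ B' t, v ∉ Bef B' t) ∧
      OneOut n' B' M' ∧ ∀ t < n', ∃ s < n, B' t = B s ∧ Adh B' t = Adh B s ∧ M' t = M s := by
  intro n
  induction n with
  | zero =>
    intro B M h _
    exact ⟨0, B, M, h, fun t ht => by omega, fun t ht => by omega, fun t ht => by omega⟩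
  | succ n ih =>
    intro B M h hO
    by_cases hall : ∀ t < n + 1, ∃ v ∈ B t, v ∉ Bef B t
    · exact ⟨n + 1, B, M, h, hall, hO, fun t ht => ⟨t, ht, rfl, rfl, rfl⟩⟩
    · push Not at hall
      obtain ⟨t0, ht0, hB0⟩ := hall
      have hA0 : Adh B t0 = B t0 := by
        ext v
        exact ⟨fun hv => hv.1, fun hv => ⟨hv, hB0 v hv⟩⟩
      set B1 : ℕ → Set V := fun t => if t < t0 then B t else B (t + 1) with hB1
      set M1 : ℕ → Set V := fun t => if t < t0 then M t else M (t + 1) with hM1
      have e1 : ∀ t, t < t0 → B1 t = B t := fun t ht => if_pos ht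
      have e2 : ∀ t, t0 ≤ t → B1 t = B (t + 1) := fun t ht => if_neg (not_lt.2 ht)
      have m1 : ∀ t, t < t0 → M1 t = M t := fun t ht => if_pos ht
      have m2 : ∀ t, t0 ≤ t → M1 t = M (t + 1) := fun t ht => if_neg (not_lt.2 ht)
      have b1 : ∀ t, t ≤ t0 → Bef B1 t = Bef B t := by
        intro t ht
        ext v
        constructor
        · rintro ⟨s, hs, hv⟩
          rw [e1 s (by omega)] at hv
          exact ⟨s, hs, hv⟩
        · rintro ⟨s, hs, hv⟩
          refine ⟨s, hs, ?_⟩
          rw [e1 s (by omega)]
          exact hv
      have b2 : ∀ t, t0 ≤ t → Bef B1 t = Bef B (t + 1) := by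
        intro t ht
        ext v
        constructor
        · rintro ⟨s, hs, hv⟩
          by_cases h1 : s < t0
          · rw [e1 s h1] at hv
            exact ⟨s, by omega, hv⟩
          · rw [e2 s (by omega)] at hv
            exact ⟨s + 1, by omega, hv⟩
        · rintro ⟨s, hs, hv⟩
          have low : ∀ s < t0, v ∈ B s → v ∈ Bef B1 t := by
            intro s h1 hv
            refine ⟨s, by omega, ?_⟩
            rw [e1 s h1]
            exact hv
          rcases lt_trichotomy s t0 with h1 | h1 | h1
          · exact low s h1 hv
          · rw [h1] at hv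
            obtain ⟨s', hs', hv'⟩ := hB0 v hv
            exact low s' hs' hv'
          · refine ⟨s - 1, by omega, ?_⟩
            rw [e2 (s - 1) (by omega)]
            have : s - 1 + 1 = s := by omega
            rw [this]
            exact hv
      have a1 : ∀ t, t < t0 → Adh B1 t = Adh B t := by
        intro t ht
        unfold Adh
        rw [e1 t ht, b1 t ht.le]
      have a2 : ∀ t, t0 ≤ t → Adh B1 t = Adh B (t + 1) := by
        intro t ht
        unfold Adh
        rw [e2 t ht, b2 t ht]
      have hmap : ∀ t, t < n → ∃ s < n + 1, B1 t = B s ∧ Bef B1 t = Bef B s ∧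
          Adh B1 t = Adh B s ∧ M1 t = M s := by
        intro t ht
        by_cases h1 : t < t0
        · exact ⟨t, by omega, e1 t h1, b1 t h1.le, a1 t h1, m1 t h1⟩
        · exact ⟨t + 1, by omega, e2 t (by omega), b2 t (by omega), a2 t (by omega),
            m2 t (by omega)⟩
      have hG1 : Glued k H n B1 := by
        refine ⟨?_, ?_, ?_, ?_⟩
        · intro v
          have hv1 := h.it_lt v
          have hv2 := h.it_mem v
          have hne : h.it v ≠ t0 := by
            intro e
            rw [e] at hv2
            have h3 := (h.mem_bef_iff ht0.le).1 (hB0 v hv2)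
            omega
          rcases Nat.lt_or_gt_of_ne hne with h3 | h3
          · refine ⟨h.it v, by omega, ?_⟩
            rw [e1 _ h3]
            exact hv2
          · refine ⟨h.it v - 1, by omega, ?_⟩
            rw [e2 _ (by omega)]
            have : h.it v - 1 + 1 = h.it v := by omega
            rw [this]
            exact hv2
        · intro t ht
          obtain ⟨s, hs, h1, h2, h3, _⟩ := hmap t ht
          rw [h3]
          exact h.card s hs
        · intro t ht
          obtain ⟨s, hs, h1, h2, h3, _⟩ := hmap t ht
          rw [h3]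
          exact h.clique s hs
        · intro t ht
          obtain ⟨s, hs, h1, h2, _, _⟩ := hmap t ht
          rw [h1, h2]
          exact h.sep s hs
      have hO1 : OneOut n B1 M1 := by
        -- a bag `s` of the old sequence, below the old index of `u`
        have key : ∀ u < n, 0 < u → ∀ s, (s < t0 ∧ s < u ∨ t0 < s ∧ s < u + 1) →
            ∀ A : Set V, A ⊆ B s → (A \ (M s ∪ Adh B s)).Subsingleton →
            ∃ t < u, A ⊆ B1 t ∧ (A \ (M1 t ∪ Adh B1 t)).Subsingleton := by
          intro u hu hu0 s hs A h1 h2
          rcases hs with ⟨g1, g2⟩ | ⟨g1, g2⟩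
          · refine ⟨s, g2, ?_, ?_⟩
            · rw [e1 s g1]
              exact h1
            · rw [m1 s g1, a1 s g1]
              exact h2
          · have g3 : s - 1 + 1 = s := by omega
            refine ⟨s - 1, by omega, ?_, ?_⟩
            · rw [e2 (s - 1) (by omega), g3]
              exact h1
            · rw [m2 (s - 1) (by omega), a2 (s - 1) (by omega), g3]
              exact h2
        intro u hu hu0
        by_cases h1 : u < t0
        · rw [a1 u h1]
          obtain ⟨t, ht, h2, h3⟩ := hO u (by omega) hu0
          exact key u hu hu0 t (Or.inl ⟨by omega, ht⟩) _ h2 h3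
        · rw [a2 u (by omega)]
          obtain ⟨t, ht, h2, h3⟩ := hO (u + 1) (by omega) (by omega)
          rcases lt_trichotomy t t0 with g1 | g1 | g1
          · exact key u hu hu0 t (Or.inl ⟨g1, by omega⟩) _ h2 h3
          · -- the parent was the removed bag
            rw [g1, ← hA0] at h2
            rcases Nat.eq_zero_or_pos t0 with g2 | g2
            · -- the removed bag is empty
              have hemp : Adh B (u + 1) = ∅ := by
                rw [Set.eq_empty_iff_forall_notMem]
                intro v hv
                obtain ⟨s, hs, _⟩ := (h2 hv).2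
                omega
              rw [hemp]
              exact ⟨0, hu0, Set.empty_subset _, by
                rw [Set.empty_diff]
                exact Set.subsingleton_empty⟩
            · obtain ⟨t', ht', h4, h5⟩ := hO t0 ht0 g2
              refine key u hu hu0 t' (Or.inl ⟨ht', by omega⟩) _ (h2.trans h4) ?_
              exact h5.anti (Set.diff_subset_diff_left h2)
          · exact key u hu hu0 t (Or.inr ⟨g1, ht⟩) _ h2 h3
      obtain ⟨n', B', M', h1, h2, h3, h4⟩ := ih B1 M1 hG1 hO1
      refine ⟨n', B', M', h1, h2, h3, fun t ht => ?_⟩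
      obtain ⟨s, hs, g1, g2, g3⟩ := h4 t ht
      obtain ⟨s', hs', g4, _, g5, g6⟩ := hmap s hs
      exact ⟨s', hs', g1.trans g4, g2.trans g5, g3.trans g6⟩

end Vale.Agent.P235.K5.H964
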