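import Vale.Agent.P235.H141.CX.Defs
import Vale.Agent.P235.K5.H964.Rem

set_option autoImplicit false
set_option linter.all false

/-!
# Line CX, row [CX6]: `CXStmt` without the clause on new vertices
-/

namespace Vale.Agent.P235.K5.H964

open SimpleGraph Vale.Agent.P235 Vale.Agent.P235.K5 Vale.Agent.P235.H684 Vale.Agent.P235.H141.CX

/-- **[CX6]** `CXStmt` without the clause that every bag has a new vertex -/
def CXFree : Prop :=
  ∀ (C : ℝ) (k : ℕ), 1 ≤ C → ∃ K : ℝ, 1 ≤ K ∧ ∀ (V : Type) [Finite V] (G H : SimpleGraph V)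
    (n : ℕ) (B : ℕ → Set V), G ≤ H → G.Connected → Glued k H n B →
      (∀ t < n, DistortionLE (H.induce (B t)) C) →
      (∀ u < n, 0 < u → ∃ t < u, Adh B u ⊆ B t ∧ (Adh B u \ Adh B t).Subsingleton) →
        DistortionLE G K

theorem cx6 (h : CXStmt) : CXFree := by
  intro C k hC
  obtain ⟨K, hK, hmain⟩ := h C k hC
  refine ⟨K, hK, ?_⟩
  intro V _ G H n B hle hconn hGl hdist hO
  have hO' : OneOut n B fun _ => ∅ := by
    intro u hu hu0
    obtain ⟨t, ht, h1, h2⟩ := hO u hu hu0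
    refine ⟨t, ht, h1, ?_⟩
    rw [Set.empty_union]
    exact h2
  obtain ⟨n', B', M', h1, h2, h3, h4⟩ := reduceM n B (fun _ => ∅) hGl hO'
  refine hmain V G H n' B' hle hconn h1 h2 ?_ ?_
  · intro t ht
    obtain ⟨s, hs, g1, _, _⟩ := h4 t ht
    rw [g1]
    exact hdist s hs
  · intro u hu hu0
    obtain ⟨t, ht, g1, g2⟩ := h3 u hu hu0
    obtain ⟨s, hs, _, _, g3⟩ := h4 t (ht.trans hu)
    refine ⟨t, ht, g1, ?_⟩
    rw [g3, Set.empty_union] at g2
    exact g2

end Vale.Agent.P235.K5.H964
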